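import Vale.Agent.P122.E.Defs
import Vale.Agent.P127.Stk.LibDom

/-! # P122 / H474 : everything passes to dense laws (helper474)

`Cnt.res`, `Unf.res`, `ExU.res`, `Rare.res`, `RegA.res`, `RegB.res` : the hypotheses of [EN] for a system pass to every
dense system whose support is mapped into the support. `Rare.false` : a dense system is not supported in a rare event. -/

set_option autoImplicit false

namespace Vale.Agent.P122.H474

open Filter Topology Finset Vale.Agent.P127 Vale.Agent.P127.Stk Vale.Agent.P127.U Vale.Agent.P127.U.Sys Vale.Agent.P122.C2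
  Vale.Agent.P122.E

section dense

variable {S' S : Sys} {α β : Type*}

/-- the support is mapped into the support -/
def SM (d : Dns S' S) : Prop := ∀ i ω, 0 < (S'.P i).w ω → 0 < (S.P i).w (d.π i ω)

theorem dns_L (d : Dns S' S) (i : ℕ) : S'.L i = S.L i := congrFun d.L_eq i

theorem dns_nu (d : Dns S' S) (n : ℕ → ℕ) : S'.nu n = S.nu n := by
  unfold Sys.nu
  rw [d.L_eq]

theorem dns_dom (d : Dns S' S) (ε : ℝ) (hε : 0 < ε) : ∀ᶠ i in (uf : Filter ℕ),
    Dom (S'.P i) (d.π i) (S.P i) ((2 : ℝ) ^ (ε * S.L i)) := d.dom ε hε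

theorem dom_pr {Ω Ω' : Type} [Fintype Ω] [Fintype Ω'] {Q : Law Ω'} {π : Ω' → Ω} {P : Law Ω} {M : ℝ} (h : Dom Q π P M)
    (X : Ω → α) (x : α) : Q.pr (X ∘ π) x ≤ M * P.pr X x := by
  rw [← push_pr]
  unfold Law.pr
  rw [Finset.mul_sum]
  exact Finset.sum_le_sum fun ω _ => h ω

theorem dom_ex {Ω Ω' : Type} [Fintype Ω] [Fintype Ω'] {Q : Law Ω'} {π : Ω' → Ω} {P : Law Ω} {M : ℝ} (h : Dom Q π P M)
    (f : Ω → ℝ) (hf : ∀ ω, 0 ≤ f ω) : Q.ex (f ∘ π) ≤ M * P.ex f := by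
  rw [← push_ex]
  unfold Law.ex
  rw [Finset.mul_sum]
  refine Finset.sum_le_sum fun ω _ => ?_
  rw [← mul_assoc]
  exact mul_le_mul_of_nonneg_right (h ω) (hf ω)

theorem Cnt.res {X : S.RV α} {Z : S.RV β} {r : ℝ} (h : Cnt S X Z r) (d : Dns S' S) (hs : SM d) :
    Cnt S' (d.pull X) (d.pull Z) r := by
  intro ε hε
  filter_upwards [h ε hε] with i hi ω hω
  obtain ⟨U, hU, hU'⟩ := hi (d.π i ω) (hs i ω hω)
  rw [dns_L d]
  exact ⟨U, hU, fun ω' hω' e => hU' (d.π i ω') (hs i ω' hω') e⟩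

theorem Unf.res {X : S.RV α} {r : ℝ} (h : Unf S X r) (d : Dns S' S) : Unf S' (d.pull X) r := by
  intro ε hε
  filter_upwards [h (ε / 2) (by positivity), dns_dom d (ε / 2) (by positivity)] with i h1 h2 ω
  have h3 := dom_pr h2 (X i) (X i (d.π i ω))
  rw [dns_L d]
  calc (S'.P i).pr (d.pull X i) (d.pull X i ω) ≤ (2 : ℝ) ^ (ε / 2 * S.L i) * (S.P i).pr (X i) (X i (d.π i ω)) := h3
    _ ≤ (2 : ℝ) ^ (ε / 2 * S.L i) * (2 : ℝ) ^ ((-r + ε / 2) * S.L i) := by
        exact mul_le_mul_of_nonneg_left (h1 _) (by positivity)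
    _ = (2 : ℝ) ^ ((-r + ε) * S.L i) := by
        rw [← Real.rpow_add (by norm_num)]
        congr 1
        ring

theorem prb_nonneg (E : ∀ i, S.Ω i → Prop) (i : ℕ) : 0 ≤ prb S E i := by
  unfold prb
  refine Law.ex_nonneg _ fun ω _ => ?_
  split_ifs <;> norm_num

theorem prb_res_le (E : ∀ i, S.Ω i → Prop) (d : Dns S' S) {M : ℝ} {i : ℕ} (h : Dom (S'.P i) (d.π i) (S.P i) M) :
    prb S' (fun i ω => E i (d.π i ω)) i ≤ M * prb S E i := by
  classical
  exact dom_ex h (fun ω => if E i ω then 1 else 0) fun ω => by split_ifs <;> norm_num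

theorem Rare.res {E : ∀ i, S.Ω i → Prop} (h : Rare S E) (d : Dns S' S) : Rare S' fun i ω => E i (d.π i ω) := by
  obtain ⟨η, hη, h1⟩ := h
  refine ⟨η / 2, by positivity, ?_⟩
  filter_upwards [h1, dns_dom d (η / 2) (by positivity)] with i h2 h3
  rw [dns_L d]
  calc prb S' (fun i ω => E i (d.π i ω)) i ≤ (2 : ℝ) ^ (η / 2 * S.L i) * prb S E i := prb_res_le E d h3
    _ ≤ (2 : ℝ) ^ (η / 2 * S.L i) * (2 : ℝ) ^ (-(η * S.L i)) := mul_le_mul_of_nonneg_left h2 (by positivity)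
    _ = (2 : ℝ) ^ (-(η / 2 * S.L i)) := by
        rw [← Real.rpow_add (by norm_num)]
        congr 1
        ring

theorem Rare.mono {E E' : ∀ i, S.Ω i → Prop} (h : Rare S E)
    (h' : ∀ᶠ i in (uf : Filter ℕ), ∀ ω, 0 < (S.P i).w ω → E' i ω → E i ω) : Rare S E' := by
  classical
  obtain ⟨η, hη, h1⟩ := h
  refine ⟨η, hη, ?_⟩
  filter_upwards [h1, h'] with i h2 h3
  refine le_trans ?_ h2
  unfold prb
  refine Law.ex_mono _ fun ω hω => ?_
  by_cases h4 : E' i ω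
  · rw [if_pos h4, if_pos (h3 ω hω h4)]
  · rw [if_neg h4]
    split_ifs <;> norm_num

theorem two_rpow_small (η : ℝ) (hη : 0 < η) (c : ℝ) (hc : 0 < c) :
    ∀ᶠ i in (uf : Filter ℕ), (2 : ℝ) ^ (-(η * S.L i)) ≤ c := by
  have h1 : Tendsto (fun i => (S.L i : ℝ)) (uf : Filter ℕ) atTop := tendsto_natCast_atTop_atTop.comp S.Ltop
  have h2 : Tendsto (fun i => η * (S.L i : ℝ)) (uf : Filter ℕ) atTop := h1.const_mul_atTop hη
  have h3 := h2.eventually_ge_atTop (-(Real.logb 2 c))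
  filter_upwards [h3] with i hi
  calc (2 : ℝ) ^ (-(η * S.L i)) ≤ (2 : ℝ) ^ (Real.logb 2 c) :=
        Real.rpow_le_rpow_of_exponent_le (by norm_num) (by linarith)
    _ = c := Real.rpow_logb (by norm_num) (by norm_num) hc

theorem Rare.union {E E' : ∀ i, S.Ω i → Prop} (h : Rare S E) (h' : Rare S E') : Rare S fun i ω => E i ω ∨ E' i ω := by
  classical
  obtain ⟨η, hη, h1⟩ := h
  obtain ⟨η', hη', h1'⟩ := h'
  set μ := min η η' with hμ
  have hμ0 : 0 < μ := lt_min hη hη'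
  refine ⟨μ / 2, by positivity, ?_⟩
  filter_upwards [h1, h1', two_rpow_small (S := S) (μ / 2) (by positivity) (1 / 2) (by norm_num)] with i h2 h3 h4
  have hL : (0 : ℝ) ≤ S.L i := Nat.cast_nonneg _
  have e1 : (2 : ℝ) ^ (-(η * S.L i)) ≤ (2 : ℝ) ^ (-(μ * S.L i)) := by
    apply Real.rpow_le_rpow_of_exponent_le (by norm_num)
    have := mul_le_mul_of_nonneg_right (min_le_left η η') hL
    linarith
  have e2 : (2 : ℝ) ^ (-(η' * S.L i)) ≤ (2 : ℝ) ^ (-(μ * S.L i)) := by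
    apply Real.rpow_le_rpow_of_exponent_le (by norm_num)
    have := mul_le_mul_of_nonneg_right (min_le_right η η') hL
    linarith
  have e3 : prb S (fun i ω => E i ω ∨ E' i ω) i ≤ prb S E i + prb S E' i := by
    unfold prb
    rw [← Law.ex_add]
    refine Law.ex_mono _ fun ω _ => ?_
    by_cases k1 : E i ω <;> by_cases k2 : E' i ω <;> simp [k1, k2]
  have e4 : (2 : ℝ) ^ (-(μ * S.L i)) = (2 : ℝ) ^ (-(μ / 2 * S.L i)) * (2 : ℝ) ^ (-(μ / 2 * S.L i)) := by
    rw [← Real.rpow_add (by norm_num)]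
    congr 1
    ring
  have e5 : (0 : ℝ) < (2 : ℝ) ^ (-(μ / 2 * S.L i)) := by positivity
  have e6 : (2 : ℝ) ^ (-(μ * S.L i)) ≤ (1 / 2) * (2 : ℝ) ^ (-(μ / 2 * S.L i)) := by
    rw [e4]
    exact mul_le_mul_of_nonneg_right h4 e5.le
  linarith

theorem Rare.biUnion {ι : Type*} (I : Finset ι) {E : ι → ∀ i, S.Ω i → Prop} (h : ∀ k ∈ I, Rare S (E k)) :
    Rare S fun i ω => ∃ k ∈ I, E k i ω := by
  classical
  induction I using Finset.induction_on with
  | empty =>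
    refine ⟨1, one_pos, Eventually.of_forall fun i => ?_⟩
    unfold prb
    simp only [Finset.notMem_empty, false_and, exists_false, if_false]
    rw [Law.ex_const]
    positivity
  | insert k I _ ih =>
    have h1 := Rare.union (h k (Finset.mem_insert_self k I)) (ih fun j hj => h j (Finset.mem_insert_of_mem hj))
    refine Rare.mono h1 (Eventually.of_forall fun i ω _ hE => ?_)
    obtain ⟨j, hj, hE⟩ := hE
    rcases Finset.mem_insert.1 hj with rfl | hj
    · exact Or.inl hE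
    · exact Or.inr ⟨j, hj, hE⟩

/-- a dense system is not supported in a rare event -/
theorem Rare.false {E : ∀ i, S.Ω i → Prop} (h : Rare S E) (d : Dns S' S)
    (h' : ∀ᶠ i in (uf : Filter ℕ), ∀ ω, 0 < (S'.P i).w ω → E i (d.π i ω)) : False := by
  classical
  obtain ⟨η, hη, h1⟩ := Rare.res h d
  have key : ∀ᶠ _i in (uf : Filter ℕ), False := by
    filter_upwards [h1, h', two_rpow_small (S := S') η hη (1 / 2) (by norm_num)] with i h2 h3 h4
    have h5 : prb S' (fun i ω => E i (d.π i ω)) i = 1 := by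
      unfold prb
      rw [Law.ex_congr (S'.P i) (g := fun _ => 1) fun ω hω => if_pos (h3 ω hω), Law.ex_const]
    rw [h5] at h2
    linarith
  exact key.exists.elim fun _ h => h

end dense

/-! ### composition of dense systems -/

/-- the trivial dense system -/
def dnsRefl (S : Sys) : Dns S S where
  π := fun _ ω => ω
  L_eq := rfl
  dom := by
    intro ε hε
    refine Eventually.of_forall fun i ω => ?_
    have h1 : (S.P i).pr (fun ω => ω) ω = (S.P i).w ω := Stk.pr_id (S.P i) ω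
    rw [h1]
    have h2 : (1 : ℝ) ≤ (2 : ℝ) ^ (ε * S.L i) :=
      Real.one_le_rpow (by norm_num) (mul_nonneg hε.le (Nat.cast_nonneg _))
    have := (S.P i).nn ω
    nlinarith

/-- composition -/
def dnsComp {S'' S' S : Sys} (d' : Dns S'' S') (d : Dns S' S) : Dns S'' S where
  π := fun i ω => d.π i (d'.π i ω)
  L_eq := d'.L_eq.trans d.L_eq
  dom := by
    intro ε hε
    filter_upwards [dns_dom d' (ε / 2) (by positivity), dns_dom d (ε / 2) (by positivity)] with i h1 h2 ω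
    have h3 := (h1.comp h2) ω
    have h4 : (2 : ℝ) ^ (ε / 2 * S'.L i) * (2 : ℝ) ^ (ε / 2 * S.L i) = (2 : ℝ) ^ (ε * S.L i) := by
      rw [dns_L d, ← Real.rpow_add (by norm_num)]
      congr 1
      ring
    rw [h4] at h3
    exact h3

/-! ### regular systems -/

section reg

variable {K : ℕ} {F : Flg K} {J θ H e : ℕ → ℝ} {W : ℕ → F.S.BX} {kk jj : ℕ → ℕ → ℕ} {S' : Sys}

theorem ExU.res {c : ℕ} {v : ℝ} (h : ExU F c v) (d : Dns S' F.S)
    (hs : ∀ i ω, 0 < (S'.P i).w ω → 0 < (F.S.P i).w (d.π i ω)) : ExU (F.res d hs) c v := by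
  intro ε hε
  filter_upwards [h ε hε] with i hi
  intro θ' u1 u2 p v' T U h1 h2 h3 h4
  have h5 := hi θ' u1 u2 p v' T U h1 h2 h3 fun S hS => by
    obtain ⟨⟨ω, hω, e1⟩, e2⟩ := h4 S hS
    exact ⟨⟨d.π i ω, hs i ω hω, e1⟩, e2⟩
  have h6 : (F.res d hs).S.L i = F.S.L i := dns_L d i
  rw [h6]
  exact h5

theorem RegA.res (h : RegA F J θ H e W kk jj) (d : Dns S' F.S)
    (hs : ∀ i ω, 0 < (S'.P i).w ω → 0 < (F.S.P i).w (d.π i ω)) :
    RegA (F.res d hs) J θ H e (fun c => d.pullB (W c)) kk jj where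
  J0 := h.J0
  e0 := h.e0
  kid := fun c hc => Cnt.res (h.kid c hc) d hs
  x1 := Cnt.res h.x1 d hs
  flag := Unf.res h.flag d
  Nu := fun c hc => Unf.res (h.Nu c hc) d
  N1 := fun c hc => Cnt.res (h.N1 c hc) d hs
  L := h.L
  B1 := fun c hc => Cnt.res (h.B1 c hc) d hs
  exU := fun c hc => ExU.res (h.exU c hc) d hs
  Wok := fun c hc => by
    filter_upwards [h.Wok c hc] with i hi ω hω
    exact hi (d.π i ω) (hs i ω hω)
  Wfn := fun c hc => by
    filter_upwards [h.Wfn c hc] with i hi ω ω' hω hω' e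
    exact hi (d.π i ω) (d.π i ω') (hs i ω hω) (hs i ω' hω') e
  W1 := fun c hc => by
    have h1 := Cnt.res (h.W1 c hc) d hs
    have h2 : (F.res d hs).S.nu (kk c) = F.S.nu (kk c) := dns_nu d _
    have h3 : (F.res d hs).S.nu (jj c) = F.S.nu (jj c) := dns_nu d _
    rw [h2, h3]
    exact h1

theorem nα_res (d : Dns S' F.S) (hs : ∀ i ω, 0 < (S'.P i).w ω → 0 < (F.S.P i).w (d.π i ω)) (c : ℕ) :
    nα (F.res d hs) jj c = nα F jj c := by
  unfold nα
  have h3 : (F.res d hs).S.nu (jj c) = F.S.nu (jj c) := dns_nu d _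
  rw [h3]

theorem thin_res (d : Dns S' F.S) (hs : ∀ i ω, 0 < (S'.P i).w ω → 0 < (F.S.P i).w (d.π i ω)) (κ c1 : ℝ) (c : ℕ) :
    Thin (F.res d hs) e jj κ c1 c ↔ Thin F e jj κ c1 c := by
  unfold Thin
  rw [nα_res d hs]

theorem ng_res (d : Dns S' F.S) (hs : ∀ i ω, 0 < (S'.P i).w ω → 0 < (F.S.P i).w (d.π i ω)) (κ c1 : ℝ)
    (JF : ℕ → ℝ) (c : ℕ) : ng (F.res d hs) e jj κ c1 JF c = ng F e jj κ c1 JF c := by
  classical
  unfold ng
  refine Finset.sum_congr rfl fun i _ => ?_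
  have h1 : (1 ≤ i ∧ Thin (F.res d hs) e jj κ c1 i) ↔ (1 ≤ i ∧ Thin F e jj κ c1 i) := by
    rw [thin_res d hs κ c1 i]
  by_cases h2 : 1 ≤ i ∧ Thin F e jj κ c1 i
  · rw [if_pos h2, if_pos (h1.2 h2)]
  · rw [if_neg h2, if_neg fun h3 => h2 (h1.1 h3)]

theorem RegB.res {κ c1 : ℝ} {φ : ℕ → ℕ → Nd → ℝ} {JF : ℕ → ℝ} (h : RegB F J θ H e W kk jj κ c1 φ JF) (d : Dns S' F.S)
    (hs : ∀ i ω, 0 < (S'.P i).w ω → 0 < (F.S.P i).w (d.π i ω)) :
    RegB (F.res d hs) J θ H e (fun c => d.pullB (W c)) kk jj κ c1 φ JF where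
  toRegA := RegA.res h.toRegA d hs
  JF0 := h.JF0
  JF1 := h.JF1
  frame := fun c hc hc' ht => by
    filter_upwards [h.frame c hc hc' ((thin_res d hs κ c1 c).1 ht)] with i hi ω hω
    have h6 : (F.res d hs).S.L i = F.S.L i := dns_L d i
    rw [h6]
    exact hi (d.π i ω) (hs i ω hω)
  B2 := fun c hc hc' ht => Cnt.res (h.B2 c hc hc' ((thin_res d hs κ c1 c).1 ht)) d hs
  C2 := fun c hc hc' ht => Cnt.res (h.C2 c hc hc' ((thin_res d hs κ c1 c).1 ht)) d hs

end reg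

end Vale.Agent.P122.H474
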