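import Vale.Agent.P122.C.Defs2

/-! # P122 / H474 : deterministic geometry of the zigzag chains (helper474)

`Chn s n K N` : `N 0, …, N K` is a chain of nodes. For `c ≤ d ≤ K`:
* `Chn.tau_eq`, `Chn.T_eq` : cap and time block of level `c`, `d` are digits of each other;
* `Chn.slope` : `|s c τ_c - s d τ_d| ≤ C (d - c) / 2^(c n)`;
* `Chn.posn` : `|2^(cn) o_c - (2^(dn) o_d + (t_c - t_d) s_d)| ≤ (C + 2) (d - c) 2^(dn)`, `t_c = 2^(2cn) T_c`;
* `Chn.o_near` : `o_d` is within `(C + 2) (d - c) + 1` of an explicit function of `(o_c / 2^((d-c)n), T_c, τ_d)`. -/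

set_option autoImplicit false

namespace Vale.Agent.P122.H474

open Vale.Agent.P122.C2

/-- a chain of nodes -/
structure Chn (s : ℕ → Z2 → Fin 2 → ℝ) (n K : ℕ) (N : ℕ → Nd) : Prop where
  cap : ∀ c, c ≤ K → Cap n c (N c).τ
  step : ∀ c, c < K → N (c + 1) = ((N c).sg n).ch s n c (N (c + 1)).τ
  kid : ∀ c, c < K → (N (c + 1)).τ ∈ kids n (N c).τ

/-- the left end of the time block -/
noncomputable def tm (n c : ℕ) (S : Nd) : ℝ := 2 ^ (2 * c * n) * (S.T : ℝ)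

/-- the position of the axis at the left end of the time block -/
noncomputable def ps (n c : ℕ) (S : Nd) (k : Fin 2) : ℝ := 2 ^ (c * n) * (S.o k : ℝ)

lemma ediv_real (a : ℤ) (m : ℕ) : (a : ℝ) / 2 ^ m = ((a / 2 ^ m : ℤ) : ℝ) + ((a % 2 ^ m : ℤ) : ℝ) / 2 ^ m := by
  have h3 : (a : ℤ) = 2 ^ m * (a / 2 ^ m) + a % 2 ^ m := (Int.mul_ediv_add_emod a (2 ^ m)).symm
  have h4 : (a : ℝ) = 2 ^ m * ((a / 2 ^ m : ℤ) : ℝ) + ((a % 2 ^ m : ℤ) : ℝ) := by exact_mod_cast h3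
  have hbr : (2 : ℝ) ^ m ≠ 0 := by positivity
  rw [div_eq_iff hbr, add_mul, div_mul_cancel₀ _ hbr]
  linarith [h4]

lemma emod_frac (a : ℤ) (m : ℕ) : 0 ≤ ((a % 2 ^ m : ℤ) : ℝ) / 2 ^ m ∧ ((a % 2 ^ m : ℤ) : ℝ) / 2 ^ m ≤ 1 := by
  have hb : (0 : ℤ) < 2 ^ m := by positivity
  have h1 := Int.emod_nonneg a hb.ne'
  have h2 := Int.emod_lt_of_pos a hb
  have hbr : (0 : ℝ) < 2 ^ m := by positivity
  have h5 : (0 : ℝ) ≤ ((a % 2 ^ m : ℤ) : ℝ) := by exact_mod_cast h1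
  have h6 : ((a % 2 ^ m : ℤ) : ℝ) ≤ 2 ^ m := by exact_mod_cast h2.le
  exact ⟨by positivity, by rwa [div_le_one hbr]⟩

lemma abs_ediv_sub (a : ℤ) (m : ℕ) : |((a / 2 ^ m : ℤ) : ℝ) - (a : ℝ) / 2 ^ m| ≤ 1 := by
  have h := ediv_real a m
  have h' := emod_frac a m
  rw [h, abs_le]
  constructor <;> linarith [h'.1, h'.2]

namespace Chn

variable {C : ℝ} {n K : ℕ} {s : ℕ → Z2 → Fin 2 → ℝ} {N : ℕ → Nd}

lemma tau_succ (h : Chn s n K N) {c : ℕ} (hc : c < K) (k : Fin 2) :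
    (N c).τ k = (N (c + 1)).τ k / 2 ^ n := by
  have h1 := h.kid c hc
  unfold kids at h1
  rw [Fintype.mem_piFinset] at h1
  have h2 := Finset.mem_Ico.mp (h1 k)
  have hb : (0 : ℤ) < 2 ^ n := by positivity
  symm
  rw [Int.ediv_eq_iff_of_pos hb]
  constructor
  · linarith [h2.1]
  · linarith [h2.2]

lemma T_succ (h : Chn s n K N) {c : ℕ} (hc : c < K) : (N (c + 1)).T = (N c).T / 2 ^ (2 * n) := by
  conv_lhs => rw [h.step c hc]
  rfl

lemma o_succ (h : Chn s n K N) {c : ℕ} (hc : c < K) (k : Fin 2) : (N (c + 1)).o k =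
    ⌊(((N c).o k / 2 ^ n : ℤ) : ℝ) - (((N c).T % 2 ^ (2 * n) : ℤ) : ℝ) * 2 ^ (2 * c * n) *
      s (c + 1) (N (c + 1)).τ k / 2 ^ ((c + 1) * n)⌋ := by
  conv_lhs => rw [h.step c hc]
  rfl

lemma tau_eq (h : Chn s n K N) {c d : ℕ} (hcd : c ≤ d) (hd : d ≤ K) (k : Fin 2) :
    (N c).τ k = (N d).τ k / 2 ^ ((d - c) * n) := by
  induction d, hcd using Nat.le_induction with
  | base => simp
  | succ d hcd ih =>
    rw [ih (by omega), h.tau_succ (by omega : d < K), Int.ediv_ediv_of_nonneg (by positivity), ← pow_add]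
    congr 2
    rw [show d + 1 - c = (d - c) + 1 by omega]; ring

lemma T_eq (h : Chn s n K N) {c d : ℕ} (hcd : c ≤ d) (hd : d ≤ K) :
    (N d).T = (N c).T / 2 ^ (2 * (d - c) * n) := by
  induction d, hcd using Nat.le_induction with
  | base => simp
  | succ d hcd ih =>
    rw [h.T_succ (by omega : d < K), ih (by omega), Int.ediv_ediv_of_nonneg (by positivity), ← pow_add]
    congr 2
    rw [show d + 1 - c = (d - c) + 1 by omega]; ring

lemma slope_succ (hs : Slp C n K s) (h : Chn s n K N) {c : ℕ} (hc : c < K) (k : Fin 2) :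
    |s c (N c).τ k - s (c + 1) (N (c + 1)).τ k| ≤ C / 2 ^ (c * n) := by
  have h1 := hs.nest c (N (c + 1)).τ k hc (h.cap (c + 1) (by omega))
  have h2 : par n (N (c + 1)).τ = (N c).τ := by
    funext k
    exact (h.tau_succ hc k).symm
  rw [h2] at h1
  rwa [abs_sub_comm]

lemma C_nonneg (hs : Slp C n K s) : 0 ≤ C := by
  have h0 : Cap n 0 (0 : Z2) := by
    intro k
    simp
  have := hs.lip 0 0 0 0 (Nat.zero_le _) h0 h0
  simpa using this

lemma slope (hs : Slp C n K s) (h : Chn s n K N) {c d : ℕ} (hcd : c ≤ d) (hd : d ≤ K) (k : Fin 2) :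
    |s c (N c).τ k - s d (N d).τ k| ≤ C * ((d : ℝ) - c) / 2 ^ (c * n) := by
  induction d, hcd using Nat.le_induction with
  | base => simp
  | succ d hcd ih =>
    have h1 := ih (by omega)
    have h2 := h.slope_succ hs (by omega : d < K) k
    have hC := C_nonneg hs
    have h3 : C / 2 ^ (d * n) ≤ C / 2 ^ (c * n) := by
      gcongr
      · norm_num
    have h4 : C * (((d + 1 : ℕ) : ℝ) - c) / 2 ^ (c * n) = C * ((d : ℝ) - c) / 2 ^ (c * n) + C / 2 ^ (c * n) := by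
      push_cast; ring
    rw [h4]
    calc |s c (N c).τ k - s (d + 1) (N (d + 1)).τ k|
        = |(s c (N c).τ k - s d (N d).τ k) + (s d (N d).τ k - s (d + 1) (N (d + 1)).τ k)| := by ring_nf
      _ ≤ |s c (N c).τ k - s d (N d).τ k| + |s d (N d).τ k - s (d + 1) (N (d + 1)).τ k| := abs_add_le _ _
      _ ≤ _ := by linarith

/-- the block of level `c` is in the block of level `d` -/
lemma tm_sub (h : Chn s n K N) {c d : ℕ} (hcd : c ≤ d) (hd : d ≤ K) :
    tm n c (N c) - tm n d (N d) = 2 ^ (2 * c * n) * (((N c).T % 2 ^ (2 * (d - c) * n) : ℤ) : ℝ) := by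
  have h1 := h.T_eq hcd hd
  have h3 : (N c).T = 2 ^ (2 * (d - c) * n) * ((N c).T / 2 ^ (2 * (d - c) * n)) + (N c).T % 2 ^ (2 * (d - c) * n) :=
    (Int.mul_ediv_add_emod (N c).T (2 ^ (2 * (d - c) * n))).symm
  rw [← h1] at h3
  have h4 : ((N c).T : ℝ) = 2 ^ (2 * (d - c) * n) * ((N d).T : ℝ) +
      (((N c).T % 2 ^ (2 * (d - c) * n) : ℤ) : ℝ) := by exact_mod_cast h3
  unfold tm
  rw [h4]
  have h5 : (2 : ℝ) ^ (2 * d * n) = 2 ^ (2 * c * n) * 2 ^ (2 * (d - c) * n) := by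
    rw [← pow_add]; congr 1
    obtain ⟨e, rfl⟩ := Nat.exists_eq_add_of_le hcd
    rw [show c + e - c = e by omega]; ring
  rw [h5]; ring

lemma tm_sub_nonneg (h : Chn s n K N) {c d : ℕ} (hcd : c ≤ d) (hd : d ≤ K) :
    0 ≤ tm n c (N c) - tm n d (N d) := by
  rw [h.tm_sub hcd hd]
  have h1 : 0 ≤ (N c).T % 2 ^ (2 * (d - c) * n) := Int.emod_nonneg _ (by positivity)
  have h2 : (0 : ℝ) ≤ (((N c).T % 2 ^ (2 * (d - c) * n) : ℤ) : ℝ) := by exact_mod_cast h1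
  positivity

lemma tm_sub_le (h : Chn s n K N) {c d : ℕ} (hcd : c ≤ d) (hd : d ≤ K) :
    tm n c (N c) + 2 ^ (2 * c * n) ≤ tm n d (N d) + 2 ^ (2 * d * n) := by
  have h0 := h.tm_sub hcd hd
  have h1 : (N c).T % 2 ^ (2 * (d - c) * n) < 2 ^ (2 * (d - c) * n) := Int.emod_lt_of_pos _ (by positivity)
  have h2 : (((N c).T % 2 ^ (2 * (d - c) * n) : ℤ) : ℝ) + 1 ≤ 2 ^ (2 * (d - c) * n) := by exact_mod_cast h1
  have h5 : (2 : ℝ) ^ (2 * d * n) = 2 ^ (2 * c * n) * 2 ^ (2 * (d - c) * n) := by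
    rw [← pow_add]; congr 1
    obtain ⟨e, rfl⟩ := Nat.exists_eq_add_of_le hcd
    rw [show c + e - c = e by omega]; ring
  have h6 : (0 : ℝ) < 2 ^ (2 * c * n) := by positivity
  nlinarith

/-- one step: the position -/
lemma posn_succ (h : Chn s n K N) {c : ℕ} (hc : c < K) (k : Fin 2) :
    |ps n c (N c) k - (ps n (c + 1) (N (c + 1)) k + (tm n c (N c) - tm n (c + 1) (N (c + 1))) *
      s (c + 1) (N (c + 1)).τ k)| ≤ 2 * 2 ^ ((c + 1) * n) := by
  have h1 := h.o_succ hc k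
  have h2 := h.tm_sub (Nat.le_succ c) hc
  have h3 := abs_ediv_sub ((N c).o k) n
  rw [Nat.succ_eq_add_one, show c + 1 - c = 1 by omega, mul_one] at h2
  rw [h2]
  set X : ℝ := (((N c).o k / 2 ^ n : ℤ) : ℝ) - (((N c).T % 2 ^ (2 * n) : ℤ) : ℝ) * 2 ^ (2 * c * n) *
      s (c + 1) (N (c + 1)).τ k / 2 ^ ((c + 1) * n) with hX
  have h4 : ((N (c + 1)).o k : ℝ) ≤ X := by rw [h1]; exact Int.floor_le X
  have h5 : X < ((N (c + 1)).o k : ℝ) + 1 := by rw [h1]; exact Int.lt_floor_add_one X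
  have hp : (0 : ℝ) < 2 ^ ((c + 1) * n) := by positivity
  have hpow : (2 : ℝ) ^ ((c + 1) * n) = 2 ^ (c * n) * 2 ^ n := by rw [← pow_add]; congr 1; ring
  have h6 : 2 ^ ((c + 1) * n) * X = 2 ^ ((c + 1) * n) * (((N c).o k / 2 ^ n : ℤ) : ℝ) -
      2 ^ (2 * c * n) * (((N c).T % 2 ^ (2 * n) : ℤ) : ℝ) * s (c + 1) (N (c + 1)).τ k := by
    rw [hX]; field_simp
  have h7 : ps n c (N c) k = 2 ^ ((c + 1) * n) * (((N c).o k : ℝ) / 2 ^ n) := by
    unfold ps; rw [hpow]; field_simp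
  have h8 : ps n (c + 1) (N (c + 1)) k = 2 ^ ((c + 1) * n) * ((N (c + 1)).o k : ℝ) := rfl
  have h9 : ps n c (N c) k - (ps n (c + 1) (N (c + 1)) k +
      2 ^ (2 * c * n) * (((N c).T % 2 ^ (2 * n) : ℤ) : ℝ) * s (c + 1) (N (c + 1)).τ k) =
      2 ^ ((c + 1) * n) * (((N c).o k : ℝ) / 2 ^ n - (((N c).o k / 2 ^ n : ℤ) : ℝ)) +
      2 ^ ((c + 1) * n) * (X - ((N (c + 1)).o k : ℝ)) := by
    rw [h7, h8]
    linear_combination -h6
  rw [h9, ← mul_add, abs_mul, abs_of_pos hp, mul_comm (2 : ℝ)]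
  gcongr
  have h10 := abs_le.mp h3
  rw [abs_le]
  constructor <;> linarith [h10.1, h10.2]

/-- the position -/
lemma posn (hs : Slp C n K s) (h : Chn s n K N) {c d : ℕ} (hcd : c ≤ d) (hd : d ≤ K) (k : Fin 2) :
    |ps n c (N c) k - (ps n d (N d) k + (tm n c (N c) - tm n d (N d)) * s d (N d).τ k)| ≤
      (C + 2) * ((d : ℝ) - c) * 2 ^ (d * n) := by
  induction d, hcd using Nat.le_induction with
  | base => simp
  | succ d hcd ih =>
    have h1 := ih (by omega)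
    have h2 := h.posn_succ (by omega : d < K) k
    have h3 := h.slope_succ hs (by omega : d < K) k
    have hC := C_nonneg hs
    have h4 := h.tm_sub_nonneg hcd (by omega : d ≤ K)
    have h5 := h.tm_sub_le hcd (by omega : d ≤ K)
    have h6 : tm n c (N c) - tm n d (N d) ≤ 2 ^ (2 * d * n) := by
      have : (0 : ℝ) < 2 ^ (2 * c * n) := by positivity
      linarith
    have h7 : |(tm n c (N c) - tm n d (N d)) * (s d (N d).τ k - s (d + 1) (N (d + 1)).τ k)| ≤ C * 2 ^ (d * n) := by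
      rw [abs_mul, abs_of_nonneg h4]
      calc (tm n c (N c) - tm n d (N d)) * |s d (N d).τ k - s (d + 1) (N (d + 1)).τ k|
          ≤ 2 ^ (2 * d * n) * (C / 2 ^ (d * n)) := by gcongr
        _ = C * 2 ^ (d * n) := by
          rw [show 2 * d * n = d * n + d * n by ring, pow_add]; field_simp
    have h8 : (2 : ℝ) ^ (d * n) ≤ 2 ^ ((d + 1) * n) := by
      apply pow_le_pow_right₀ (by norm_num); nlinarith
    have hdc : (0 : ℝ) ≤ (d : ℝ) - c := by
      have : (c : ℝ) ≤ d := by exact_mod_cast hcd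
      linarith
    have h9 : (C + 2) * ((d : ℝ) - c) * 2 ^ (d * n) ≤ (C + 2) * ((d : ℝ) - c) * 2 ^ ((d + 1) * n) := by
      gcongr
    have h10 : C * (2 : ℝ) ^ (d * n) ≤ C * 2 ^ ((d + 1) * n) := by gcongr
    have h11 : ps n c (N c) k - (ps n (d + 1) (N (d + 1)) k + (tm n c (N c) - tm n (d + 1) (N (d + 1))) *
        s (d + 1) (N (d + 1)).τ k) =
        (ps n c (N c) k - (ps n d (N d) k + (tm n c (N c) - tm n d (N d)) * s d (N d).τ k)) +
        (ps n d (N d) k - (ps n (d + 1) (N (d + 1)) k + (tm n d (N d) - tm n (d + 1) (N (d + 1))) *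
          s (d + 1) (N (d + 1)).τ k)) +
        (tm n c (N c) - tm n d (N d)) * (s d (N d).τ k - s (d + 1) (N (d + 1)).τ k) := by ring
    rw [h11]
    have h12 : (C + 2) * (((d + 1 : ℕ) : ℝ) - c) * 2 ^ ((d + 1) * n) =
        (C + 2) * ((d : ℝ) - c) * 2 ^ ((d + 1) * n) + 2 * 2 ^ ((d + 1) * n) + C * 2 ^ ((d + 1) * n) := by
      push_cast; ring
    rw [h12]
    refine (abs_add_three _ _ _).trans ?_
    linarith

/-- `o_d` is near an explicit function of the piece of level `(c, d)` and of the cap `τ_d` -/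
lemma o_near (hs : Slp C n K s) (h : Chn s n K N) {c d : ℕ} (hcd : c ≤ d) (hd : d ≤ K) (k : Fin 2) :
    |((N d).o k : ℝ) - ((((N c).o k / 2 ^ ((d - c) * n) : ℤ) : ℝ) -
      2 ^ (2 * c * n) * (((N c).T % 2 ^ (2 * (d - c) * n) : ℤ) : ℝ) * s d (N d).τ k / 2 ^ (d * n))| ≤
      (C + 2) * ((d : ℝ) - c) + 1 := by
  have h1 := h.posn hs hcd hd k
  rw [h.tm_sub hcd hd] at h1
  have h2 := abs_ediv_sub ((N c).o k) ((d - c) * n)
  have hp : (0 : ℝ) < 2 ^ (d * n) := by positivity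
  have hpow : (2 : ℝ) ^ (d * n) = 2 ^ (c * n) * 2 ^ ((d - c) * n) := by
    rw [← pow_add]; congr 1
    obtain ⟨e, rfl⟩ := Nat.exists_eq_add_of_le hcd
    rw [show c + e - c = e by omega]; ring
  have h3 : ps n c (N c) k = 2 ^ (d * n) * (((N c).o k : ℝ) / 2 ^ ((d - c) * n)) := by
    unfold ps; rw [hpow]; field_simp
  have h4 : ps n c (N c) k - (ps n d (N d) k + 2 ^ (2 * c * n) *
      (((N c).T % 2 ^ (2 * (d - c) * n) : ℤ) : ℝ) * s d (N d).τ k) =
      2 ^ (d * n) * (((N c).o k : ℝ) / 2 ^ ((d - c) * n) - ((N d).o k : ℝ) - 2 ^ (2 * c * n) *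
      (((N c).T % 2 ^ (2 * (d - c) * n) : ℤ) : ℝ) * s d (N d).τ k / 2 ^ (d * n)) := by
    rw [h3]; unfold ps; field_simp; ring
  rw [h4, abs_mul, abs_of_pos hp, mul_comm, mul_le_mul_iff_left₀ hp] at h1
  have h5 := abs_le.mp h1
  have h6 := abs_le.mp h2
  rw [abs_le]
  constructor <;> linarith [h5.1, h5.2, h6.1, h6.2]

end Chn

/-- integers near a real number -/
lemma card_near1 (B p : ℝ) (U : Finset ℤ) (h : ∀ o ∈ U, |(o : ℝ) - p| ≤ B) : U.card ≤ ⌊2 * B⌋₊ + 1 := by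
  rcases U.eq_empty_or_nonempty with rfl | hne
  · simp
  have h1 := U.min'_mem hne
  have hsub : U ⊆ Finset.Icc (U.min' hne) (U.min' hne + (⌊2 * B⌋₊ : ℤ)) := by
    intro o ho
    rw [Finset.mem_Icc]
    refine ⟨U.min'_le o ho, ?_⟩
    have h2 := abs_le.mp (h o ho)
    have h3 := abs_le.mp (h _ h1)
    have h4 : ((o - U.min' hne : ℤ) : ℝ) ≤ 2 * B := by push_cast; linarith [h2.1, h2.2, h3.1, h3.2]
    have h5 : o - U.min' hne ≤ ⌊2 * B⌋ := Int.le_floor.mpr h4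
    have h6 : (0 : ℤ) ≤ o - U.min' hne := by linarith [U.min'_le o ho]
    have h7 : (⌊2 * B⌋ : ℤ) = (⌊2 * B⌋₊ : ℤ) := by
      have : (0 : ℝ) ≤ 2 * B := le_trans (by exact_mod_cast h6) h4
      exact (Int.natCast_floor_eq_floor this).symm
    linarith
  calc U.card ≤ (Finset.Icc (U.min' hne) (U.min' hne + (⌊2 * B⌋₊ : ℤ))).card := Finset.card_le_card hsub
    _ = ⌊2 * B⌋₊ + 1 := by rw [Int.card_Icc]; omega

/-- integer vectors near a real vector -/
lemma card_near (B : ℝ) (p : Fin 2 → ℝ) (U : Finset Z2) (h : ∀ o ∈ U, ∀ k, |(o k : ℝ) - p k| ≤ B) :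
    U.card ≤ (⌊2 * B⌋₊ + 1) ^ 2 := by
  have hsub : U ⊆ Fintype.piFinset fun k => U.image fun o => o k := by
    intro o ho
    rw [Fintype.mem_piFinset]
    intro k
    exact Finset.mem_image_of_mem _ ho
  calc U.card ≤ (Fintype.piFinset fun k => U.image fun o => o k).card := Finset.card_le_card hsub
    _ = ∏ k : Fin 2, (U.image fun o => o k).card := Fintype.card_piFinset _
    _ ≤ ∏ _k : Fin 2, (⌊2 * B⌋₊ + 1) := by
      apply Finset.prod_le_prod (fun _ _ => Nat.zero_le _)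
      intro k _
      apply card_near1 B (p k)
      intro x hx
      obtain ⟨o, ho, rfl⟩ := Finset.mem_image.mp hx
      exact h o ho k
    _ = _ := by simp

end Vale.Agent.P122.H474
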